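import Vale.Agent.P251.H603.Tower
import Mathlib.Tactic.Ring

/-!
The Adams filtration of the unit object of a tensor triangulated category.
-/

set_option linter.unusedSectionVars false

open CategoryTheory MonoidalCategory Limits Pretriangulated MonObj

universe v u v' u'

namespace Vale.Agent.P251.H603

variable {D : Type u} [Category.{v} D] [Preadditive D] [HasZeroObject D]
    [HasShift D ℤ] [∀ n : ℤ, (shiftFunctor D n).Additive] [Pretriangulated D]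
    [MonoidalCategory D] [TensorTriangulated D]

/-- `(X ⊗ Y[-1]) ≅ (X ⊗ Y)[-1]`. -/
noncomputable def tensorShiftNeg (X Y : D) : X ⊗ (Y⟦(-1 : ℤ)⟧) ≅ (X ⊗ Y)⟦(-1 : ℤ)⟧ :=
  (shiftFunctor D (1 : ℤ)).preimageIso
    ((TensorTriangulated.shiftIso X (Y⟦(-1 : ℤ)⟧)).symm ≪≫
      whiskerLeftIso X ((shiftFunctorCompIsoId D (-1 : ℤ) 1 (by norm_num)).app Y) ≪≫
      ((shiftFunctorCompIsoId D (-1 : ℤ) 1 (by norm_num)).app (X ⊗ Y)).symm)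

lemma nonempty_tensor_shift (X Z : D) (a : ℤ) :
    Nonempty (X ⊗ (Z⟦a⟧) ≅ (X ⊗ Z)⟦a⟧) := by
  induction a using Int.induction_on with
  | zero =>
    exact ⟨whiskerLeftIso X ((shiftFunctorZero D ℤ).app Z) ≪≫
      ((shiftFunctorZero D ℤ).app (X ⊗ Z)).symm⟩
  | succ a ih =>
    obtain ⟨e⟩ := ih
    exact ⟨whiskerLeftIso X ((shiftFunctorAdd D (a : ℤ) 1).app Z) ≪≫
      TensorTriangulated.shiftIso X _ ≪≫ (shiftFunctor D (1 : ℤ)).mapIso e ≪≫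
      ((shiftFunctorAdd D (a : ℤ) 1).app (X ⊗ Z)).symm⟩
  | pred a ih =>
    obtain ⟨e⟩ := ih
    have h : (-(a : ℤ) - 1) = -(a : ℤ) + (-1) := by ring
    rw [h]
    exact ⟨whiskerLeftIso X ((shiftFunctorAdd D (-(a : ℤ)) (-1)).app Z) ≪≫
      tensorShiftNeg X _ ≪≫ (shiftFunctor D (-1 : ℤ)).mapIso e ≪≫
      ((shiftFunctorAdd D (-(a : ℤ)) (-1)).app (X ⊗ Z)).symm⟩

/-- The tensor powers of spheres are spheres. -/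
lemma nonempty_tensorPow_sphere {P : D} {d : ℤ} (e : P ≅ (𝟙_ D)⟦d⟧) (k : ℕ) :
    Nonempty (tensorPow P k ≅ (𝟙_ D)⟦k * d⟧) := by
  induction k with
  | zero =>
    refine ⟨?_⟩
    rw [Nat.cast_zero, zero_mul]
    exact ((shiftFunctorZero D ℤ).app (𝟙_ D)).symm
  | succ k ih =>
    obtain ⟨f⟩ := ih
    obtain ⟨g⟩ := nonempty_tensor_shift (tensorPow P k) (𝟙_ D) d
    have h : ((k + 1 : ℕ) : ℤ) * d = k * d + d := by push_cast; ring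
    refine ⟨?_⟩
    rw [h]
    exact whiskerLeftIso _ e ≪≫ g ≪≫ (shiftFunctor D d).mapIso (ρ_ _) ≪≫
      (shiftFunctor D d).mapIso f ≪≫ ((shiftFunctorAdd D (k * d : ℤ) d).app (𝟙_ D)).symm

variable {E F : D} [MonObj E] {i : F ⟶ 𝟙_ D} {δ : E ⟶ F⟦(1 : ℤ)⟧}

lemma whiskerLeft_fibre (hF : Triangle.mk i η[E] δ ∈ distTriang D) : E ◁ i = 0 := by
  have h1 : i ≫ η[E] = 0 := comp_distTriang_mor_zero₁₂ _ hF
  have h2 : (E ◁ i) ≫ (E ◁ η[E]) = 0 := by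
    rw [← MonoidalCategory.whiskerLeft_comp, h1, MonoidalPreadditive.whiskerLeft_zero]
  have h3 : (E ◁ i) ≫ (E ◁ η[E]) ≫ μ[E] = 0 := by rw [reassoc_of% h2, zero_comp]
  rw [MonObj.mul_one] at h3
  rw [← cancel_mono (ρ_ E).hom, h3, zero_comp]

lemma exists_pow_nilpotent (hF : Triangle.mk i η[E] δ ∈ distTriang D) {X : D}
    (hX : IsNilpotent E X) : ∃ N : ℕ, X ◁ pow i N = 0 := by
  induction hX with
  | tensor Y =>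
    refine ⟨1, ?_⟩
    change (Y ⊗ E) ◁ ((𝟙 (𝟙_ D) ⊗ₘ i) ≫ (λ_ (𝟙_ D)).hom) = 0
    have h2 : (Y ⊗ E) ◁ (𝟙_ D ◁ i) = 0 := by
      have h3 : (𝟙_ D ◁ i) = (λ_ F).hom ≫ i ≫ (λ_ (𝟙_ D)).inv := by simp
      have h4 : (Y ⊗ E) ◁ i = 0 := by
        have h5 : (Y ⊗ E) ◁ i = (α_ Y E F).hom ≫ (Y ◁ (E ◁ i)) ≫ (α_ Y E (𝟙_ D)).inv := by simp
        rw [h5, whiskerLeft_fibre hF, MonoidalPreadditive.whiskerLeft_zero, zero_comp, comp_zero]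
      rw [h3, MonoidalCategory.whiskerLeft_comp, MonoidalCategory.whiskerLeft_comp, h4, zero_comp,
        comp_zero]
    rw [tensorHom_unit_eq, MonoidalCategory.whiskerLeft_comp, h2, zero_comp]
  | extension Δ hΔ _ _ h₁ h₃ =>
    obtain ⟨N₁, h₁⟩ := h₁
    obtain ⟨N₃, h₃⟩ := h₃
    refine ⟨N₃ + N₁, ?_⟩
    obtain ⟨φ, hφ⟩ := exists_pow_add i N₃ N₁
    have h4 : ((Δ.obj₂ ◁ pow i N₃) ≫ (ρ_ _).hom) ≫ Δ.mor₂ = 0 := by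
      have : ((Δ.obj₂ ◁ pow i N₃) ≫ (ρ_ _).hom) ≫ Δ.mor₂ =
          (Δ.mor₂ ▷ _) ≫ (Δ.obj₃ ◁ pow i N₃) ≫ (ρ_ _).hom := by
        rw [← whisker_exchange_assoc]; simp
      rw [this, h₃, zero_comp, comp_zero]
    obtain ⟨w, hw⟩ := Triangle.coyoneda_exact₂ _ hΔ _ h4
    have h5 : Δ.obj₂ ◁ ((pow i N₃ ⊗ₘ pow i N₁) ≫ (λ_ (𝟙_ D)).hom) =
        (α_ _ _ _).inv ≫ (((Δ.obj₂ ◁ pow i N₃) ≫ (ρ_ _).hom) ▷ _) ≫ (Δ.obj₂ ◁ pow i N₁) := by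
      rw [tensorHom_def]
      simp
    rw [hφ, MonoidalCategory.whiskerLeft_comp, h5, hw, comp_whiskerRight, Category.assoc,
      ← whisker_exchange, h₁, zero_comp, comp_zero, comp_zero, comp_zero]
  | retract j r h _ hY =>
    obtain ⟨N, hN⟩ := hY
    refine ⟨N, ?_⟩
    rename_i X Y _
    have h1 : X ◁ pow i N = (j ▷ _) ≫ (Y ◁ pow i N) ≫ (r ▷ _) := by
      rw [← whisker_exchange_assoc, ← comp_whiskerRight, h]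
      simp
    rw [h1, hN, zero_comp, comp_zero]

lemma exists_pow_eq_zero (hF : Triangle.mk i η[E] δ ∈ distTriang D)
    (hX : IsNilpotent E (𝟙_ D)) : ∃ N : ℕ, pow i N = 0 := by
  obtain ⟨N, hN⟩ := exists_pow_nilpotent hF hX
  refine ⟨N, ?_⟩
  have h1 : (λ_ _).hom ≫ pow i N = 0 := by
    rw [← leftUnitor_naturality, hN, zero_comp]
  rw [← cancel_epi (λ_ (tensorPow F N)).hom, h1, comp_zero]

/-- The differential `A ⊗ E ⟶ Σ((A ⊗ F) ⊗ E)`. -/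
def dAux (A : D) (δ : E ⟶ F⟦(1 : ℤ)⟧) : A ⊗ E ⟶ ((A ⊗ F) ⊗ E)⟦(1 : ℤ)⟧ :=
  ((A ◁ δ) ≫ (TensorTriangulated.shiftIso _ _).hom) ≫
    ((ρ_ (A ⊗ F)).inv ≫ ((A ⊗ F) ◁ η[E]))⟦(1 : ℤ)⟧'

lemma exists_lift_aux (hF : Triangle.mk i η[E] δ ∈ distTriang D) (A : D) {P : D}
    (hE : ∀ y : P⟦(1 : ℤ)⟧ ⟶ ((A ⊗ F) ⊗ E)⟦(1 : ℤ)⟧, y ≫ (dAux (A ⊗ F) δ)⟦(1 : ℤ)⟧' = 0 →
      ∃ w : P⟦(1 : ℤ)⟧ ⟶ A ⊗ E, w ≫ dAux A δ = y)
    (g : P ⟶ A ⊗ F) :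
    ∃ g' : P ⟶ (A ⊗ F) ⊗ F, g' ≫ ((A ⊗ F) ◁ i) ≫ (ρ_ (A ⊗ F)).hom ≫ (A ◁ i) = g ≫ (A ◁ i) := by
  -- the triangles `B ⊗ F → B → B ⊗ E`
  have hT : ∀ B : D, Triangle.mk (B ◁ i) (B ◁ η[E])
      ((B ◁ δ) ≫ (TensorTriangulated.shiftIso B F).hom) ∈ distTriang D := fun B =>
    TensorTriangulated.distinguished _ _ hF
  let k : ∀ B : D, B ⊗ E ⟶ (B ⊗ F)⟦(1 : ℤ)⟧ := fun B =>
    (B ◁ δ) ≫ (TensorTriangulated.shiftIso _ _).hom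
  let j : ∀ B : D, B ⟶ B ⊗ E := fun B => (ρ_ B).inv ≫ (B ◁ η[E])
  have hd : ∀ B, dAux B δ = k B ≫ (j (B ⊗ F))⟦(1 : ℤ)⟧' := fun B => rfl
  have hjk : ∀ B, j B ≫ k B = 0 := by
    intro B
    have : (B ◁ η[E]) ≫ k B = 0 := comp_distTriang_mor_zero₂₃ _ (hT B)
    simp only [j, Category.assoc, this, comp_zero]
  have hki : ∀ B, k B ≫ (B ◁ i)⟦(1 : ℤ)⟧' = 0 := fun B =>
    comp_distTriang_mor_zero₃₁ _ (hT B)
  obtain ⟨w, hw⟩ := hE ((g ≫ j (A ⊗ F))⟦(1 : ℤ)⟧') (by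
    rw [hd, ← Functor.map_comp, Category.assoc, reassoc_of% (hjk (A ⊗ F)),
      zero_comp, comp_zero, Functor.map_zero])
  obtain ⟨h, hh⟩ := (shiftFunctor D (1 : ℤ)).map_surjective (w ≫ k A)
  have h1 : (g - h) ≫ j (A ⊗ F) = 0 := by
    apply (shiftFunctor D (1 : ℤ)).map_injective
    have h2 : (shiftFunctor D (1 : ℤ)).map (h ≫ j (A ⊗ F)) =
        (shiftFunctor D (1 : ℤ)).map (g ≫ j (A ⊗ F)) := by
      rw [← hw, hd, Functor.map_comp, hh, Category.assoc]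
    rw [Functor.map_zero, Preadditive.sub_comp, Functor.map_sub, h2, sub_self]
  have h1' : ((g - h) ≫ (ρ_ (A ⊗ F)).inv) ≫ ((A ⊗ F) ◁ η[E]) = 0 := by
    rw [Category.assoc]; exact h1
  obtain ⟨g', hg'⟩ : ∃ g' : P ⟶ (A ⊗ F) ⊗ F,
      (g - h) ≫ (ρ_ (A ⊗ F)).inv = g' ≫ ((A ⊗ F) ◁ i) :=
    Triangle.coyoneda_exact₂ _ (hT (A ⊗ F)) ((g - h) ≫ (ρ_ (A ⊗ F)).inv) h1'
  refine ⟨g', ?_⟩
  have h3 : h ≫ (A ◁ i) = 0 := by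
    apply (shiftFunctor D (1 : ℤ)).map_injective
    rw [Functor.map_zero, Functor.map_comp, hh, Category.assoc, hki, comp_zero]
  have h6 : g' ≫ ((A ⊗ F) ◁ i) = (g - h) ≫ (ρ_ (A ⊗ F)).inv := hg'.symm
  rw [reassoc_of% h6, Iso.inv_hom_id_assoc, Preadditive.sub_comp, h3, sub_zero]

lemma exists_lift_succ (hF : Triangle.mk i η[E] δ ∈ distTriang D) (s : ℕ)
    (hE : AdamsE₂Vanishes δ s) {P : D} {t : ℤ} (e : P ≅ (𝟙_ D)⟦t⟧)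
    (g : P ⟶ tensorPow F (s + 1)) :
    ∃ g' : P ⟶ tensorPow F (s + 2), g' ≫ pow i (s + 2) = g ≫ pow i (s + 1) := by
  obtain ⟨g', hg'⟩ := exists_lift_aux hF (tensorPow F s) (P := P) (by
    intro y hy
    let e' : P⟦(1 : ℤ)⟧ ≅ (𝟙_ D)⟦(t + 1 : ℤ)⟧ :=
      (shiftFunctor D (1 : ℤ)).mapIso e ≪≫ ((shiftFunctorAdd D t 1).app (𝟙_ D)).symm
    obtain ⟨w, hw⟩ := hE (t + 1) (e'.inv ≫ y) (by
      have : (e'.inv ≫ y) ≫ (dAux (tensorPow F s ⊗ F) δ)⟦(1 : ℤ)⟧' = 0 := by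
        rw [Category.assoc, hy, comp_zero]
      exact this)
    refine ⟨e'.hom ≫ w, ?_⟩
    rw [Category.assoc]
    have : w ≫ dAux (tensorPow F s) δ = e'.inv ≫ y := hw
    rw [this, Iso.hom_inv_id_assoc]) g
  have key : ∀ g₁ : P ⟶ tensorPow F s ⊗ F,
      g' ≫ ((tensorPow F s ⊗ F) ◁ i) ≫ (ρ_ (tensorPow F s ⊗ F)).hom ≫ (tensorPow F s ◁ i) =
        g₁ ≫ (tensorPow F s ◁ i) →
      g' ≫ (((pow i s ⊗ₘ i) ≫ (λ_ (𝟙_ D)).hom) ⊗ₘ i) ≫ (λ_ (𝟙_ D)).hom =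
        g₁ ≫ ((pow i s ⊗ₘ i) ≫ (λ_ (𝟙_ D)).hom) := by
    intro g₁ h
    simp only [tensorHom_unit_eq]
    rw [reassoc_of% h]
  exact ⟨g', key g hg'⟩

/-- If `E₂^{s,*} = 0` for all `s > m`, then the elements of filtration `> m` are zero. -/
lemma comp_pow_eq_zero (hF : Triangle.mk i η[E] δ ∈ distTriang D)
    (hnil : IsNilpotent E (𝟙_ D)) (m : ℕ) (hE : ∀ s : ℕ, m ≤ s → AdamsE₂Vanishes δ s)
    {P : D} {t : ℤ} (e : P ≅ (𝟙_ D)⟦t⟧) (s : ℕ) (hs : m < s) (g : P ⟶ tensorPow F s) :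
    g ≫ pow i s = 0 := by
  obtain ⟨N, hN⟩ := exists_pow_eq_zero hF hnil
  obtain ⟨s, rfl⟩ := Nat.exists_eq_add_of_lt hs
  have h : ∀ c : ℕ, ∃ g' : P ⟶ tensorPow F (m + s + c + 1),
      g' ≫ pow i (m + s + c + 1) = g ≫ pow i (m + s + 1) := by
    intro c
    induction c with
    | zero => exact ⟨g, rfl⟩
    | succ c ih =>
      obtain ⟨g', hg'⟩ := ih
      obtain ⟨g'', hg''⟩ := exists_lift_succ hF (m + s + c) (hE _ (by omega)) e g'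
      exact ⟨g'', hg''.trans hg'⟩
  obtain ⟨g', hg'⟩ := h N
  rw [← hg', pow_eq_zero_of_le i (by omega) hN, comp_zero]

/-- Torsion elements of even degree have filtration at least two. -/
lemma exists_lift_two [SymmetricCategory D] (hF : Triangle.mk i η[E] δ ∈ distTriang D)
    (hodd : ∀ t : ℤ, Odd t → ∀ f : (𝟙_ D)⟦t⟧ ⟶ E ⊗ E, f = 0)
    {P : D} {t : ℤ} (ht : Even t) (e : P ≅ (𝟙_ D)⟦t⟧)
    (x : P ⟶ 𝟙_ D) (hx : x ≫ η[E] = 0) :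
    ∃ y : P ⟶ F ⊗ F, y ≫ (i ⊗ₘ i) ≫ (λ_ (𝟙_ D)).hom = x := by
  obtain ⟨x₁, hx₁⟩ : ∃ x₁ : P ⟶ F, x = x₁ ≫ i := Triangle.coyoneda_exact₂ _ hF x hx
  have hT : ∀ B : D, Triangle.mk (B ◁ i) (B ◁ η[E])
      ((B ◁ δ) ≫ (TensorTriangulated.shiftIso B F).hom) ∈ distTriang D := fun B =>
    TensorTriangulated.distinguished _ _ hF
  have h1 : ∀ f : P ⟶ E ⊗ F, f = 0 := by
    intro f
    apply (shiftFunctor D (1 : ℤ)).map_injective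
    have h2 : (shiftFunctor D (1 : ℤ)).map f ≫ (shiftFunctor D (1 : ℤ)).map (E ◁ i) = 0 := by
      rw [whiskerLeft_fibre hF, Functor.map_zero, comp_zero]
    obtain ⟨g, hg⟩ : ∃ g : P⟦(1 : ℤ)⟧ ⟶ E ⊗ E, (shiftFunctor D (1 : ℤ)).map f =
        g ≫ ((E ◁ δ) ≫ (TensorTriangulated.shiftIso E F).hom) :=
      Triangle.coyoneda_exact₁ _ (hT E) _ h2
    let e' : P⟦(1 : ℤ)⟧ ≅ (𝟙_ D)⟦(t + 1 : ℤ)⟧ :=
      (shiftFunctor D (1 : ℤ)).mapIso e ≪≫ ((shiftFunctorAdd D t 1).app (𝟙_ D)).symm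
    have h3 : g = 0 := by
      have := hodd (t + 1) (ht.add_one) (e'.inv ≫ g)
      rw [← cancel_epi e'.inv, this, comp_zero]
    rw [hg, h3, zero_comp, Functor.map_zero]
  have h2 : (x₁ ≫ (ρ_ F).inv) ≫ (F ◁ η[E]) = 0 := by
    have h3 := h1 (((x₁ ≫ (ρ_ F).inv) ≫ (F ◁ η[E])) ≫ (β_ F E).hom)
    rw [← cancel_mono (β_ F E).hom, h3, zero_comp]
  obtain ⟨y, hy⟩ : ∃ y : P ⟶ F ⊗ F, x₁ ≫ (ρ_ F).inv = y ≫ (F ◁ i) :=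
    Triangle.coyoneda_exact₂ _ (hT F) _ h2
  refine ⟨y, ?_⟩
  rw [tensorHom_unit_eq, ← reassoc_of% hy, Iso.inv_hom_id_assoc, hx₁]

/-- **Powers of even torsion elements vanish** when the `E₂`-term has a horizontal vanishing line. -/
theorem pow_eq_zero_of_torsion [SymmetricCategory D] (hF : Triangle.mk i η[E] δ ∈ distTriang D)
    (hodd : ∀ t : ℤ, Odd t → ∀ f : (𝟙_ D)⟦t⟧ ⟶ E ⊗ E, f = 0)
    (hnil : IsNilpotent E (𝟙_ D)) (m : ℕ) (hE : ∀ s : ℕ, m ≤ s → AdamsE₂Vanishes δ s)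
    {P : D} {t : ℤ} (ht : Even t) (e : P ≅ (𝟙_ D)⟦t⟧)
    (x : P ⟶ 𝟙_ D) (hx : x ≫ η[E] = 0) (k : ℕ) (hk : m < 2 * k) : pow x k = 0 := by
  obtain ⟨y, hy⟩ := exists_lift_two hF hodd ht e x hx
  obtain ⟨z, hz⟩ := exists_pow_lift x i y hy k
  obtain ⟨e'⟩ := nonempty_tensorPow_sphere e k
  rw [← hz]
  exact comp_pow_eq_zero hF hnil m hE e' (2 * k) hk z

end Vale.Agent.P251.H603
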