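import Mathlib.CategoryTheory.Triangulated.Pretriangulated
import Mathlib.CategoryTheory.Monoidal.Braided.Basic
import Mathlib.CategoryTheory.Monoidal.Preadditive
import Mathlib.CategoryTheory.Monoidal.Mon

/-!
Definitions used in the statement that the weak chromatic splitting conjecture fails.
-/

open CategoryTheory MonoidalCategory Limits Pretriangulated MonObj

universe v u

namespace Vale.Agent.P251.H603

/-- A tensor triangulated category: a (pre)triangulated category with an additive tensor product,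
which commutes with the shift, naturally in both variables, and preserves distinguished triangles
(in the second variable; all the categories used below are symmetric, so that it does so in both
variables). -/
class TensorTriangulated (T : Type u) [Category.{v} T] [Preadditive T] [HasZeroObject T]
    [HasShift T ℤ] [∀ n : ℤ, (shiftFunctor T n).Additive] [Pretriangulated T]
    [MonoidalCategory T] extends MonoidalPreadditive T where
  /-- the natural isomorphism `X ⊗ ΣY ≅ Σ(X ⊗ Y)` -/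
  shiftIso (X Y : T) : X ⊗ (Y⟦(1 : ℤ)⟧) ≅ (X ⊗ Y)⟦(1 : ℤ)⟧
  shiftIso_natural_right (X : T) {Y Z : T} (f : Y ⟶ Z) :
    (X ◁ f⟦(1 : ℤ)⟧') ≫ (shiftIso X Z).hom = (shiftIso X Y).hom ≫ (X ◁ f)⟦(1 : ℤ)⟧'
  shiftIso_natural_left {X Y : T} (f : X ⟶ Y) (Z : T) :
    (f ▷ (Z⟦(1 : ℤ)⟧)) ≫ (shiftIso Y Z).hom = (shiftIso X Z).hom ≫ (f ▷ Z)⟦(1 : ℤ)⟧'
  distinguished (X : T) (Δ : Triangle T) (hΔ : Δ ∈ distTriang T) :
    Triangle.mk (X ◁ Δ.mor₁) (X ◁ Δ.mor₂) ((X ◁ Δ.mor₃) ≫ (shiftIso X Δ.obj₁).hom) ∈ distTriang T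

section

variable {T : Type u} [Category.{v} T] [Preadditive T] [MonoidalCategory T]

/-- `f : X ⟶ Y` is the Bousfield localization of `X` with respect to `E`. -/
def IsBousfieldLocalization (E : T) {X Y : T} (f : X ⟶ Y) : Prop :=
  IsIso (E ◁ f) ∧ ∀ Z : T, IsZero (E ⊗ Z) → ∀ g : Z ⟶ Y, g = 0

end

section

variable {T : Type u} [Category.{v} T] [MonoidalCategory T]

/-- The tensor power `P ⊗ P ⊗ ⋯ ⊗ P`. -/
def tensorPow (P : T) : ℕ → T
  | 0 => 𝟙_ T
  | k + 1 => tensorPow P k ⊗ P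

/-- The `k`-th power `P ⊗ ⋯ ⊗ P ⟶ 𝟙` of a morphism `x : P ⟶ 𝟙`. -/
def pow {P : T} (x : P ⟶ 𝟙_ T) : (k : ℕ) → (tensorPow P k ⟶ 𝟙_ T)
  | 0 => 𝟙 _
  | k + 1 => (pow x k ⊗ₘ x) ≫ (λ_ (𝟙_ T)).hom

end

section

variable {D : Type u} [Category.{v} D] [Preadditive D] [HasZeroObject D]
    [HasShift D ℤ] [∀ n : ℤ, (shiftFunctor D n).Additive] [Pretriangulated D]
    [MonoidalCategory D] [TensorTriangulated D]

/-- The first differential of the `E`-based Adams spectral sequence of the unit object, for the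
distinguished triangle `F ⟶ 𝟙 ⟶ E ⟶ ΣF`; the `s`-th term of its `E₁`-page is the homotopy of
`F^{⊗ s} ⊗ E`. -/
def adamsDifferential {E F : D} [MonObj E] (δ : E ⟶ F⟦(1 : ℤ)⟧) (s : ℕ) :
    tensorPow F s ⊗ E ⟶ (tensorPow F (s + 1) ⊗ E)⟦(1 : ℤ)⟧ :=
  ((tensorPow F s ◁ δ) ≫ (TensorTriangulated.shiftIso _ _).hom) ≫
    ((ρ_ (tensorPow F (s + 1))).inv ≫ (tensorPow F (s + 1) ◁ η[E]))⟦(1 : ℤ)⟧'

/-- The term `E₂^{s+1,*}` of the `E`-based Adams spectral sequence of the unit object is zero. -/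
def AdamsE₂Vanishes {E F : D} [MonObj E] (δ : E ⟶ F⟦(1 : ℤ)⟧) (s : ℕ) : Prop :=
  ∀ (t : ℤ) (y : (𝟙_ D)⟦t⟧ ⟶ (tensorPow F (s + 1) ⊗ E)⟦(1 : ℤ)⟧),
    y ≫ (adamsDifferential δ (s + 1))⟦(1 : ℤ)⟧' = 0 →
      ∃ w : (𝟙_ D)⟦t⟧ ⟶ tensorPow F s ⊗ E, w ≫ adamsDifferential δ s = y

/-- The `E`-nilpotent objects: the smallest class of objects which contains all `X ⊗ E` and is
closed under extensions and retracts. -/
inductive IsNilpotent (E : D) : D → Prop
  | tensor (X : D) : IsNilpotent E (X ⊗ E)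
  | extension (Δ : Triangle D) (hΔ : Δ ∈ distTriang D) (h₁ : IsNilpotent E Δ.obj₁)
      (h₃ : IsNilpotent E Δ.obj₃) : IsNilpotent E Δ.obj₂
  | retract {X Y : D} (i : X ⟶ Y) (r : Y ⟶ X) (h : i ≫ r = 𝟙 X) (hY : IsNilpotent E Y) :
      IsNilpotent E X

end

end Vale.Agent.P251.H603
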