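import Vale.Agent.P251.H240.Spectra

/-!
Powers in the stable homotopy groups of spheres, and multiplicative filtrations.
-/

set_option linter.unusedSectionVars false

open CategoryTheory

namespace Vale.Agent.P251.Stable

/-- The sphere, as an object of the stable homotopy category. -/
noncomputable abbrev S0 : SH := Q.obj Spectrum.sphere

/-- The powers `x^k ∈ π_{ik} S` of `x ∈ π_i S`. -/
noncomputable def powPi {i : ℕ} (x : Pi i S0) : (k : ℕ) → Pi (i * k) S0
  | 0 => 𝟙 S0
  | k + 1 => mulPi (powPi x k) x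

lemma IsNull.comp_left {X Y Z : SH} {f : X ⟶ Y} (g : Y ⟶ Z) (h : IsNull f) : IsNull (f ≫ g) := by
  obtain ⟨a, b, rfl⟩ := h
  exact ⟨a, b ≫ g, by rw [Category.assoc]⟩

end Vale.Agent.P251.Stable
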