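import Vale.Agent.P251.H603.Defs

/-!
The Adams tower: tensor powers, products of filtrations, vanishing.
-/

set_option linter.unusedSectionVars false

open CategoryTheory MonoidalCategory Limits Pretriangulated MonObj

universe v u v' u'

namespace Vale.Agent.P251.H603

section

variable {D : Type u} [Category.{v} D] [MonoidalCategory D]

lemma tensorHom_unit_eq {A P : D} (f : A ⟶ 𝟙_ D) (x : P ⟶ 𝟙_ D) :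
    (f ⊗ₘ x) ≫ (λ_ (𝟙_ D)).hom = (A ◁ x) ≫ (ρ_ A).hom ≫ f := by
  rw [tensorHom_def', Category.assoc, unitors_equal, rightUnitor_naturality]

lemma pow_succ_eq {P : D} (x : P ⟶ 𝟙_ D) (k : ℕ) :
    pow x (k + 1) = (tensorPow P k ◁ x) ≫ (ρ_ (tensorPow P k)).hom ≫ pow x k :=
  tensorHom_unit_eq _ _

lemma pow_add_aux {A B C P : D} (φ : C ⟶ A ⊗ B) (f : A ⟶ 𝟙_ D) (g : B ⟶ 𝟙_ D) (x : P ⟶ 𝟙_ D) :
    ((φ ≫ (f ⊗ₘ g) ≫ (λ_ (𝟙_ D)).hom) ⊗ₘ x) ≫ (λ_ (𝟙_ D)).hom =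
      ((φ ▷ P) ≫ (α_ A B P).hom) ≫ (f ⊗ₘ ((g ⊗ₘ x) ≫ (λ_ (𝟙_ D)).hom)) ≫ (λ_ (𝟙_ D)).hom := by
  simp only [tensorHom_unit_eq, Category.assoc,
    MonoidalCategory.whiskerLeft_comp]
  have h2 : A ◁ B ◁ x = (α_ A B P).inv ≫ ((A ⊗ B) ◁ x) ≫ (α_ A B (𝟙_ D)).hom := by simp
  have h3 : A ◁ (ρ_ B).hom = (α_ A B (𝟙_ D)).inv ≫ (ρ_ (A ⊗ B)).hom := by simp
  rw [h2, h3]
  simp only [Category.assoc, Iso.hom_inv_id_assoc]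
  rw [← whisker_exchange_assoc]
  simp

/-- `P^{⊗(a+b)} ≅ P^{⊗ a} ⊗ P^{⊗ b}`. -/
lemma exists_pow_add {P : D} (x : P ⟶ 𝟙_ D) (a b : ℕ) :
    ∃ φ : tensorPow P (a + b) ≅ tensorPow P a ⊗ tensorPow P b,
      pow x (a + b) = φ.hom ≫ (pow x a ⊗ₘ pow x b) ≫ (λ_ (𝟙_ D)).hom := by
  induction b with
  | zero =>
    refine ⟨(ρ_ (tensorPow P a)).symm, ?_⟩
    change pow x a = (ρ_ (tensorPow P a)).inv ≫ (pow x a ⊗ₘ 𝟙 (𝟙_ D)) ≫ (λ_ (𝟙_ D)).hom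
    rw [tensorHom_unit_eq]
    simp
  | succ b ih =>
    obtain ⟨φ, hφ⟩ := ih
    refine ⟨(whiskerRightIso φ P ≪≫ α_ _ _ _ :
      tensorPow P (a + b) ⊗ P ≅ tensorPow P a ⊗ (tensorPow P b ⊗ P)), ?_⟩
    have h := pow_add_aux φ.hom (pow x a) (pow x b) x
    rw [← hφ] at h
    exact h

lemma pow_eq_zero_of_le [Preadditive D] [MonoidalPreadditive D] {P : D} (x : P ⟶ 𝟙_ D) {a b : ℕ}
    (hab : a ≤ b) (h : pow x a = 0) : pow x b = 0 := by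
  obtain ⟨c, rfl⟩ := Nat.exists_eq_add_of_le hab
  obtain ⟨φ, hφ⟩ := exists_pow_add x a c
  rw [hφ, h, MonoidalPreadditive.zero_tensor, zero_comp, comp_zero]

/-- If `x : P ⟶ 𝟙` factors through `F ⊗ F`, then `x^k` factors through `F^{⊗ 2k}`. -/
lemma exists_pow_lift {P F : D} (x : P ⟶ 𝟙_ D) (i : F ⟶ 𝟙_ D) (y : P ⟶ F ⊗ F)
    (hy : y ≫ (i ⊗ₘ i) ≫ (λ_ (𝟙_ D)).hom = x) (k : ℕ) :
    ∃ z : tensorPow P k ⟶ tensorPow F (2 * k), z ≫ pow i (2 * k) = pow x k := by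
  induction k with
  | zero => exact ⟨𝟙 (𝟙_ D), Category.id_comp (𝟙 (𝟙_ D))⟩
  | succ k ih =>
    obtain ⟨z, hz⟩ := ih
    refine ⟨((z ⊗ₘ y) ≫ (α_ _ _ _).inv :
      tensorPow P k ⊗ P ⟶ (tensorPow F (2 * k) ⊗ F) ⊗ F), ?_⟩
    change ((z ⊗ₘ y) ≫ (α_ (tensorPow F (2 * k)) F F).inv) ≫
      ((((pow i (2 * k)) ⊗ₘ i) ≫ (λ_ (𝟙_ D)).hom) ⊗ₘ i) ≫ (λ_ (𝟙_ D)).hom =
        (pow x k ⊗ₘ x) ≫ (λ_ (𝟙_ D)).hom
    have h := pow_add_aux (𝟙 (tensorPow F (2 * k) ⊗ F)) (pow i (2 * k)) i i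
    rw [Category.id_comp] at h
    rw [h, ← hz, ← hy]
    simp

end

end Vale.Agent.P251.H603
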