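import Vale.Agent.P251.H603.Adams
import Mathlib.CategoryTheory.Triangulated.Functor
import Mathlib.CategoryTheory.Adjunction.FullyFaithful
import Mathlib.Data.Nat.Prime.Basic

/-!
The weak chromatic splitting conjecture fails.
-/

set_option linter.unusedSectionVars false

open CategoryTheory MonoidalCategory Limits Pretriangulated MonObj

universe v u v' u'

namespace Vale.Agent.P251.H603

section

variable {T : Type u} [Category.{v} T] [MonoidalCategory T]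
variable {D : Type u'} [Category.{v'} D] [MonoidalCategory D]

/-- A strong monoidal functor preserves the powers of `x : P ⟶ 𝟙`. -/
lemma exists_map_pow (L : T ⥤ D) [L.Monoidal] {P : T} (x : P ⟶ 𝟙_ T) (k : ℕ) :
    ∃ φ : tensorPow (L.obj P) k ≅ L.obj (tensorPow P k),
      φ.hom ≫ L.map (pow x k) ≫ Functor.OplaxMonoidal.η L =
        pow (L.map x ≫ Functor.OplaxMonoidal.η L) k := by
  induction k with
  | zero =>
    refine ⟨(Functor.Monoidal.εIso L : 𝟙_ D ≅ L.obj (𝟙_ T)), ?_⟩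
    change (Functor.Monoidal.εIso L).hom ≫ L.map (𝟙 (𝟙_ T)) ≫ Functor.OplaxMonoidal.η L = 𝟙 (𝟙_ D)
    simp
  | succ k ih =>
    obtain ⟨φ, hφ⟩ := ih
    refine ⟨(whiskerRightIso φ (L.obj P) ≪≫ Functor.Monoidal.μIso L _ _ :
      tensorPow (L.obj P) k ⊗ L.obj P ≅ L.obj (tensorPow P k ⊗ P)), ?_⟩
    change (φ.hom ▷ L.obj P ≫ Functor.LaxMonoidal.μ L _ _) ≫
      L.map ((pow x k ⊗ₘ x) ≫ (λ_ (𝟙_ T)).hom) ≫ Functor.OplaxMonoidal.η L =
      (pow (L.map x ≫ Functor.OplaxMonoidal.η L) k ⊗ₘ (L.map x ≫ Functor.OplaxMonoidal.η L)) ≫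
        (λ_ (𝟙_ D)).hom
    rw [← hφ]
    simp only [Functor.map_comp, Category.assoc,
      Functor.Monoidal.map_leftUnitor]
    simp only [tensorHom_def, Category.assoc, leftUnitor_naturality,
      comp_whiskerRight, MonoidalCategory.whiskerLeft_comp]
    simp

end

variable {T : Type u} [Category.{v} T] [Preadditive T] [HasZeroObject T]
    [HasShift T ℤ] [∀ n : ℤ, (shiftFunctor T n).Additive] [Pretriangulated T]
    [MonoidalCategory T] [SymmetricCategory T] [TensorTriangulated T]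
variable {D : Type u'} [Category.{v'} D] [Preadditive D] [HasZeroObject D]
    [HasShift D ℤ] [∀ n : ℤ, (shiftFunctor D n).Additive] [Pretriangulated D]
    [MonoidalCategory D] [SymmetricCategory D] [TensorTriangulated D]

/-- Maps to a local object extend along a morphism with acyclic fibre. -/
lemma exists_extension {A B : T} (f : A ⟶ B) {W : T}
    (h : ∀ (C : T) (g : C ⟶ A) (k : B ⟶ C⟦(1 : ℤ)⟧), Triangle.mk g f k ∈ distTriang T →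
      ∀ v : C ⟶ W, v = 0) (w : A ⟶ W) : ∃ w' : B ⟶ W, w = f ≫ w' := by
  obtain ⟨C, g, k, hC⟩ := distinguished_cocone_triangle₁ f
  exact Triangle.yoneda_exact₂ _ hC w (h C g k hC _)

lemma isZero_fibre {G A B C : T} {g : C ⟶ A} {f : A ⟶ B} {k : B ⟶ C⟦(1 : ℤ)⟧}
    (hC : Triangle.mk g f k ∈ distTriang T) (h : IsIso (G ◁ f)) : IsZero (G ⊗ C) :=
  (Triangle.isZero₁_iff_isIso₂ _ (TensorTriangulated.distinguished G _ hC)).2 h

/-- If `p = 0` on `K`, then `M`-acyclic objects are `K`-acyclic, `M` the cofibre of `p`. -/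
lemma isZero_of_moore {K : T} {c : ℤ} (hc : c • 𝟙 K = 0)
    {M : T} {a : 𝟙_ T ⟶ M} {b : M ⟶ (𝟙_ T)⟦(1 : ℤ)⟧}
    (hM : Triangle.mk (c • 𝟙 (𝟙_ T)) a b ∈ distTriang T)
    {C : T} (h1 : IsZero (M ⊗ C)) : IsZero (K ⊗ C) := by
  have h2 : IsZero (C ⊗ M) := h1.of_iso (β_ C M)
  have h3 : IsIso (C ◁ (c • 𝟙 (𝟙_ T))) :=
    (Triangle.isZero₃_iff_isIso₁ _ (TensorTriangulated.distinguished C _ hM)).1 h2
  have h4 : C ◁ (c • 𝟙 (𝟙_ T)) = c • 𝟙 (C ⊗ 𝟙_ T) := by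
    have : C ◁ (c • 𝟙 (𝟙_ T)) = c • (C ◁ (𝟙 (𝟙_ T))) := (tensorLeft C).map_zsmul
    rw [this, MonoidalCategory.whiskerLeft_id]
  rw [h4] at h3
  have h6 : IsZero (K ⊗ (C ⊗ 𝟙_ T)) := by
    have h7 : IsIso (K ◁ (c • 𝟙 (C ⊗ 𝟙_ T))) := inferInstance
    have h8 : K ◁ (c • 𝟙 (C ⊗ 𝟙_ T)) = 0 := by
      have e3 : K ◁ (c • 𝟙 (C ⊗ 𝟙_ T)) = c • (K ◁ (𝟙 (C ⊗ 𝟙_ T))) := (tensorLeft K).map_zsmul
      have e4 : (c • 𝟙 K) ▷ (C ⊗ 𝟙_ T) = c • (𝟙 K ▷ (C ⊗ 𝟙_ T)) :=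
        (tensorRight (C ⊗ 𝟙_ T)).map_zsmul
      rw [e3, MonoidalCategory.whiskerLeft_id, ← id_whiskerRight, ← e4, hc]
      simp
    rw [h8] at h7
    rw [IsZero.iff_id_eq_zero, ← cancel_epi (0 : K ⊗ (C ⊗ 𝟙_ T) ⟶ K ⊗ (C ⊗ 𝟙_ T))]
    simp
  exact h6.of_iso (whiskerLeftIso K (ρ_ C).symm)

/-- **The weak chromatic splitting conjecture fails** at `(n, p)` if `p ≤ n`, `(p - 1) ∤ n` and
`n² < 2 (p - 1)²`, for example for `n = p ≥ 5`. -/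
theorem weak_splitting_fails (p n : ℕ) (hp : p.Prime) (hpn : p ≤ n) (hdiv : ¬ (p - 1) ∣ n)
    (hlt : n ^ 2 < 2 * (p - 1) ^ 2)
    -- Morava K-theories, Johnson-Wilson theories
    (K J : ℕ → T) (hK : ∀ m, 1 ≤ m → (p : ℤ) • 𝟙 (K m) = 0)
    (hJ : ∀ m X, IsZero (J m ⊗ X) ↔ ∀ i ≤ m, IsZero (K i ⊗ X))
    -- the `p`-complete sphere `S`
    (M : T) (a : 𝟙_ T ⟶ M) (b : M ⟶ (𝟙_ T)⟦(1 : ℤ)⟧)
    (hM : Triangle.mk ((p : ℤ) • 𝟙 (𝟙_ T)) a b ∈ distTriang T)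
    (S : T) (c : 𝟙_ T ⟶ S) (hc : IsBousfieldLocalization M c)
    -- `X = L_{n-1} S`, `Z = L_{K(n)} S`, `Y = L_{n-1} Z`, and the canonical map `i_n : X ⟶ Y`
    (X : T) (l : S ⟶ X) (hl : IsBousfieldLocalization (J (n - 1)) l)
    (Z : T) (z : S ⟶ Z) (hz : IsBousfieldLocalization (K n) z)
    (Y : T) (y : Z ⟶ Y) (_hy : IsBousfieldLocalization (J (n - 1)) y)
    (iₙ : X ⟶ Y) (hi : l ≫ iₙ = z ≫ y)
    -- the `K(n)`-local category
    (L : T ⥤ D) [L.Monoidal] [L.CommShift ℤ] [L.IsTriangulated] (R : D ⥤ T) [R.Full] [R.Faithful]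
    (adj : L ⊣ R) (hL : ∀ A, IsZero (L.obj A) ↔ IsZero (K n ⊗ A))
    -- Lubin-Tate theory
    (E F : D) [MonObj E] (i : F ⟶ 𝟙_ D) (δ : E ⟶ F⟦(1 : ℤ)⟧)
    (hF : Triangle.mk i η[E] δ ∈ distTriang D)
    (htf : ∀ (t : ℤ) (f : (𝟙_ D)⟦t⟧ ⟶ E), (p : ℤ) • f = 0 → f = 0)
    (hodd : ∀ t : ℤ, Odd t → ∀ f : (𝟙_ D)⟦t⟧ ⟶ E ⊗ E, f = 0)
    (hnil : IsNilpotent E (𝟙_ D))
    (hvan : ¬ (p - 1) ∣ n → ∀ s : ℕ, n ^ 2 ≤ s → AdamsE₂Vanishes δ s)
    -- the element `β₁` and higher real K-theory `EO`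
    (x : (𝟙_ T)⟦(2 * p ^ 2 - 2 * p - 2 : ℤ)⟧ ⟶ 𝟙_ T) (hx : (p : ℤ) • x = 0)
    (EO : T) [MonObj EO] (hEO : ∀ W : T, IsZero (K (p - 1) ⊗ W) → ∀ g : W ⟶ EO, g = 0)
    (hβ : pow x ((p - 1) ^ 2) ≫ η[EO] ≠ 0) :
    ¬ ∃ r : Y ⟶ X, iₙ ≫ r = 𝟙 X := by
  rintro ⟨r, hr⟩
  have hp2 : 2 ≤ p := hp.two_le
  -- vanishing in the `K(n)`-local category
  have h1 : L.map (pow x ((p - 1) ^ 2)) = 0 := by
    obtain ⟨φ, hφ⟩ := exists_map_pow L x ((p - 1) ^ 2)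
    let e : L.obj ((𝟙_ T)⟦(2 * p ^ 2 - 2 * p - 2 : ℤ)⟧) ≅ (𝟙_ D)⟦(2 * p ^ 2 - 2 * p - 2 : ℤ)⟧ :=
      (L.commShiftIso (2 * p ^ 2 - 2 * p - 2 : ℤ)).app (𝟙_ T) ≪≫
        (shiftFunctor D _).mapIso (Functor.Monoidal.εIso L).symm
    have hx' : (L.map x ≫ Functor.OplaxMonoidal.η L) ≫ η[E] = 0 := by
      have h2 := htf _ (e.inv ≫ (L.map x ≫ Functor.OplaxMonoidal.η L) ≫ η[E]) (by
        have h3 : (p : ℤ) • L.map x = 0 := by rw [← L.map_zsmul, hx, L.map_zero]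
        rw [← Preadditive.comp_zsmul, ← Preadditive.zsmul_comp, ← Preadditive.zsmul_comp, h3,
          zero_comp, zero_comp, comp_zero])
      rw [← cancel_epi e.inv, h2, comp_zero]
    have h2 := pow_eq_zero_of_torsion hF hodd hnil (n ^ 2) (hvan hdiv)
      (t := 2 * p ^ 2 - 2 * p - 2) ⟨(p ^ 2 - p - 1 : ℤ), by ring⟩ e
      (L.map x ≫ Functor.OplaxMonoidal.η L) hx' ((p - 1) ^ 2) hlt
    rw [h2] at hφ
    have h3 : L.map (pow x ((p - 1) ^ 2)) ≫ (Functor.Monoidal.εIso L).inv = 0 := by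
      rw [← cancel_epi φ.hom, comp_zero]
      exact hφ
    rw [← cancel_mono (Functor.Monoidal.εIso L).inv, h3, zero_comp]
  -- vanishing in the `K(n)`-local sphere
  have h2 : pow x ((p - 1) ^ 2) ≫ c ≫ z = 0 := by
    obtain ⟨w, hw⟩ := exists_extension (adj.unit.app (𝟙_ T)) (W := Z) (by
      intro C g k hC v
      refine hz.2 C ?_ v
      rw [← hL]
      refine (Triangle.isZero₁_iff_isIso₂ _ (L.map_distinguished _ hC)).2 ?_
      change IsIso (L.map (adj.unit.app (𝟙_ T)))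
      exact (inferInstance : IsIso (L.map (adj.unit.app (𝟙_ T))))) (c ≫ z)
    rw [hw]
    have h3 := adj.unit.naturality (pow x ((p - 1) ^ 2))
    simp only [Functor.id_map, Functor.comp_map] at h3
    rw [reassoc_of% h3, h1, R.map_zero, zero_comp, comp_zero]
  -- vanishing in `L_{n-1} S`
  have h3 : pow x ((p - 1) ^ 2) ≫ c ≫ l = 0 := by
    rw [← Category.comp_id l, ← hr, reassoc_of% hi, reassoc_of% h2, zero_comp]
  -- non-vanishing in `EO`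
  apply hβ
  obtain ⟨w, hw⟩ := exists_extension c (W := EO) (by
    intro C g k hC v
    exact hEO C (isZero_of_moore (hK (p - 1) (by omega)) hM (isZero_fibre hC hc.1)) v) η[EO]
  obtain ⟨w', hw'⟩ := exists_extension l (W := EO) (by
    intro C g k hC v
    exact hEO C (((hJ (n - 1) C).1 (isZero_fibre hC hl.1)) (p - 1) (by omega)) v) w
  rw [hw, hw', reassoc_of% h3, zero_comp]

end Vale.Agent.P251.H603
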